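import Vale.Agent.P011.D4X.H637.ExU
import Vale.Agent.P011.D4X.H691.Na
import Vale.Agent.P011.E6.FixB
import Vale.Agent.P011.E6I.H64.Real
import Vale.Agent.P011.D4X.H657.ZT
import Vale.Agent.P011.D4X.H369.AutI
import Vale.Agent.P011.D4X.H691.Ch
import Vale.Agent.P011.E6.Pos3

/-!
Block D4X: the torus (row F1b).
-/

open NumberField Topology

namespace Vale.Agent.P011.D4X

open Vale.Agent.P011.Arith Vale.Agent.P011.MPQ Vale.Agent.P011.D4 Vale.Agent.P011.D4.Oct
  Vale.Agent.P011.E6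

section alg

variable {k L E : Type} [Field k] [Field L] [Field E] [Algebra k L] [Algebra k E] [Algebra L E]
  [IsScalarTower k L E] [NeZero (2 : E)] {ρ σ : E ≃ₐ[k] E} {ρL : L ≃ₐ[k] L} {α : E}
  {a b c : kˣ} {q : Lˣ}

omit [NeZero (2 : E)] [IsScalarTower k L E] [Algebra k L] [Field L] [Algebra L E] in
/-- The value of a torus element on the plane of `1` and `i`. -/
theorem H637.shortFun_torus (p r x y : E) :
    shortFun ρ (⟨p, r, 0, 0⟩ : Qt (up E a) (up E b)) (⟨⟨x, y, 0, 0⟩, 0⟩ : OctL E a b c) =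
      ⟨⟨(p * x + (up E a : Eˣ) * r * y) * ρ (ρ p) - (up E a : Eˣ) * (p * y + r * x) * ρ (ρ r),
        (p * y + r * x) * ρ (ρ p) - (p * x + (up E a : Eˣ) * r * y) * ρ (ρ r), 0, 0⟩, 0⟩ := by
  unfold shortFun
  ext1
  · change (⟨p, r, 0, 0⟩ : Qt (up E a) (up E b)) * ⟨x, y, 0, 0⟩ *
      star (qmap ρ (qmap ρ (⟨p, r, 0, 0⟩ : Qt (up E a) (up E b)))) = _
    ext
    · simp only [QuaternionAlgebra.re_mul, QuaternionAlgebra.imI_mul, QuaternionAlgebra.imJ_mul,
        QuaternionAlgebra.imK_mul, QuaternionAlgebra.re_star, QuaternionAlgebra.imI_star,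
        QuaternionAlgebra.imJ_star, QuaternionAlgebra.imK_star, re_qmap, imI_qmap, imJ_qmap,
        imK_qmap, map_zero]
      ring
    · simp only [QuaternionAlgebra.re_mul, QuaternionAlgebra.imI_mul, QuaternionAlgebra.imJ_mul,
        QuaternionAlgebra.imK_mul, QuaternionAlgebra.re_star, QuaternionAlgebra.imI_star,
        QuaternionAlgebra.imJ_star, QuaternionAlgebra.imK_star, re_qmap, imI_qmap, imJ_qmap,
        imK_qmap, map_zero]
      ring
    · simp only [QuaternionAlgebra.re_mul, QuaternionAlgebra.imI_mul, QuaternionAlgebra.imJ_mul,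
        QuaternionAlgebra.imK_mul, QuaternionAlgebra.re_star, QuaternionAlgebra.imI_star,
        QuaternionAlgebra.imJ_star, QuaternionAlgebra.imK_star, re_qmap, imI_qmap, imJ_qmap,
        imK_qmap, map_zero]
      ring
    · simp only [QuaternionAlgebra.re_mul, QuaternionAlgebra.imI_mul, QuaternionAlgebra.imJ_mul,
        QuaternionAlgebra.imK_mul, QuaternionAlgebra.re_star, QuaternionAlgebra.imI_star,
        QuaternionAlgebra.imJ_star, QuaternionAlgebra.imK_star, re_qmap, imI_qmap, imJ_qmap,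
        imK_qmap, map_zero]
      ring
  · change (0 : Qt (up E a) (up E b)) * _ = 0
    rw [zero_mul]

omit [NeZero (2 : E)] [IsScalarTower k L E] in
theorem H637.psiL_torus (p r : L) : (psiL α q (⟨p, r, 0, 0⟩ : Qt (up L a) (q * up L b)) :
    Qt (up E a) (up E b)) = ⟨algebraMap L E p, algebraMap L E r, 0, 0⟩ := by
  unfold psiL
  refine QuaternionAlgebra.ext rfl rfl ?_ ?_
  · simp
  · simp

variable (H : Hy ρ σ ρL α a b c q)

include H

omit [IsScalarTower k L E] [NeZero (2 : E)] in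
/-- The hypotheses do not depend on the coordinates. -/
theorem H637.hy_trip [NeZero (2 : k)] {b' c' : kˣ} {j l : Oct a b c} (ht : Trip a b' c' gi j l) :
    Hy ρ σ ρL α a b' c' q :=
  { H with
    hdiv := (aniso_of_trip H.hdiv ht).2.2.2
    hre := fun w ha g1 g2 g3 => by
      have h := Dfn.trip (w := w.comp (algebraMap k L))
        ⟨ha, (H.hre w ha g1 g2 g3).1, (H.hre w ha g1 g2 g3).2⟩ ht
      exact ⟨h.2.1, h.2.2⟩ }

/-- The short subgroup, as a homomorphism. -/
theorem H637.exists_shortHom : ∃ s : SL1 (up L a) (q * up L b) →* GT ρ σ α a b c q, ∀ x y, (s x).1 y =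
    shortFun ρ (psiL α q ((x : (Qt (up L a) (q * up L b))ˣ) : Qt (up L a) (q * up L b))) y := by
  choose S hS1 hS2 using exists_short (c := c) H
  have hmul : ∀ x y, S (x * y) = S x * S y := by
    intro x y
    apply LinearEquiv.ext
    intro z
    rw [LinearEquiv.mul_apply, hS2, hS2, hS2, ← Em.shortFun_mul, ← psiL_mul H]
    rfl
  exact ⟨MonoidHom.mk' (fun x => ⟨S x, hS1 x⟩) fun x y => Subtype.ext (hmul x y),
    fun x y => hS2 x y⟩

omit H in
/-- Change of coordinates, as a homomorphism. -/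
noncomputable def H637.tripHom {b' c' : kˣ} {j l : Oct a b c} (ht : Trip a b' c' gi j l) :
    GT ρ σ α a b' c' q →* GT ρ σ α a b c q where
  toFun g := ⟨cjE (tripO E ht) g.1, fun x y => by
    obtain ⟨x, rfl⟩ := (tripO E ht).surjective x
    obtain ⟨y, rfl⟩ := (tripO E ht).surjective y
    rw [← tripO_tri, cjE_apply, cjE_apply, cjE_apply, g.2.1, tripO_tri], fun x => by
    obtain ⟨x, rfl⟩ := (tripO E ht).surjective x
    rw [← tripO_Jm, cjE_apply, cjE_apply, g.2.2, tripO_Jm]⟩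
  map_one' := Subtype.ext (map_one (cjE (tripO E ht)))
  map_mul' g h := Subtype.ext (map_mul (cjE (tripO E ht)) g.1 h.1)

omit H in
theorem H637.tripHom_apply {b' c' : kˣ} {j l : Oct a b c} (ht : Trip a b' c' gi j l)
    (g : GT ρ σ α a b' c' q) (x : OctL E a b' c') :
    (H637.tripHom ht g).1 (tripO E ht x) = tripO E ht (g.1 x) := cjE_apply _ _ _

end alg

section arith

variable {k L E : Type} [Field k] [NumberField k] [Field L] [NumberField L] [Field E]
  [Algebra k L] [Algebra k E] [Algebra L E]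
  [IsScalarTower k L E] [NeZero (2 : E)] {ρ σ : E ≃ₐ[k] E} {ρL : L ≃ₐ[k] L} {α : E}
  {a b c : kˣ} {q : Lˣ} (H : Hy ρ σ ρL α a b c q)

include H

omit [NumberField L] [NeZero (2 : E)] in
/-- The quaternion algebra `Q₁` is a division algebra. -/
theorem H637.aniso1 : Aniso (up L a) (q * up L b) := by
  obtain ⟨w, hwa, hwb, -, hq, -, -⟩ := H.cp
  intro x hx
  have h1 := congrArg w hx
  have e1 : ((up L a : Lˣ) : L) = algebraMap k L a := rfl
  have e2 : ((q * up L b : Lˣ) : L) = q * algebraMap k L b := rfl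
  simp only [nrd, e1, e2, map_add, map_sub, map_mul, map_pow, map_zero] at h1
  have g1 : 0 ≤ (-w (algebraMap k L a)) * w x.imI ^ 2 := by
    have := neg_pos.2 hwa
    positivity
  have g2 : 0 ≤ w q * (-w (algebraMap k L b)) * w x.imJ ^ 2 := by
    have := neg_pos.2 hwb
    positivity
  have g3 : 0 ≤ w q * (-w (algebraMap k L a)) * (-w (algebraMap k L b)) * w x.imK ^ 2 := by
    have := neg_pos.2 hwb
    have := neg_pos.2 hwa
    positivity
  have g0 : 0 ≤ w x.re ^ 2 := sq_nonneg _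
  have z0 : w x.re ^ 2 = 0 := by nlinarith
  have z1 : (-w (algebraMap k L a)) * w x.imI ^ 2 = 0 := by nlinarith
  have z2 : w q * (-w (algebraMap k L b)) * w x.imJ ^ 2 = 0 := by nlinarith
  have z3 : w q * (-w (algebraMap k L a)) * (-w (algebraMap k L b)) * w x.imK ^ 2 = 0 := by
    nlinarith
  have n1 : -w (algebraMap k L a) ≠ 0 := (neg_pos.2 hwa).ne'
  have n2 : -w (algebraMap k L b) ≠ 0 := (neg_pos.2 hwb).ne'
  have y0 : x.re = 0 := by
    rw [pow_eq_zero_iff two_ne_zero, map_eq_zero] at z0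
    exact z0
  have y1 : x.imI = 0 := by
    have := (mul_eq_zero.1 z1).resolve_left n1
    rw [pow_eq_zero_iff two_ne_zero, map_eq_zero] at this
    exact this
  have y2 : x.imJ = 0 := by
    have := (mul_eq_zero.1 z2).resolve_left (mul_ne_zero hq.ne' n2)
    rw [pow_eq_zero_iff two_ne_zero, map_eq_zero] at this
    exact this
  have y3 : x.imK = 0 := by
    have := (mul_eq_zero.1 z3).resolve_left (mul_ne_zero (mul_ne_zero hq.ne' n1) n2)
    rw [pow_eq_zero_iff two_ne_zero, map_eq_zero] at this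
    exact this
  ext
  · exact y0
  · exact y1
  · exact y2
  · exact y3

/-- F1b (637): the torus. -/
theorem tor_mem {x : SL1 (up L a) (q * up L b)}
    (hJ : ((x : (Qt (up L a) (q * up L b))ˣ) : Qt (up L a) (q * up L b)).imJ = 0)
    (hK : ((x : (Qt (up L a) (q * up L b))ˣ) : Qt (up L a) (q * up L b)).imK = 0)
    {g : OctL E a b c ≃ₗ[E] OctL E a b c}
    (hg : ∀ y : OctL E a b c, g y = shortFun ρ (psiL α q ((x : (Qt (up L a) (q * up L b))ˣ) :
      Qt (up L a) (q * up L b))) y) : g ∈ Rs ρ σ α a b c q := by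
  obtain ⟨u, b₁, hb₁, -, hram⟩ := H637.exists_u H.h3 H.ρ1 H.ρL3 a b c q
  have ht := H24.trip_u (a := a) (b := b) (c := c) hb₁
  have H₁ : Hy ρ σ ρL α a b₁ b q := H637.hy_trip H ht
  obtain ⟨s, hs⟩ := H637.exists_shortHom H
  obtain ⟨s₁, hs₁⟩ := H637.exists_shortHom H₁
  have hgs : g = (s x).1 := by
    apply LinearEquiv.ext
    intro y
    rw [hg, hs]
  rw [hgs, mem_Rs]
  refine ⟨(s x).2, ?_⟩
  rw [mem_fres]
  intro N hN
  have hfi : N.FiniteIndex := ⟨hN⟩
  have hNc : N.normalCore.index ≠ 0 := (inferInstance : N.normalCore.FiniteIndex).index_ne_zero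
  apply Subgroup.normalCore_le N
  refine H637.torus_abs hram (H637.aniso1 H) (H637.aniso1 H₁) s ((H637.tripHom ht).comp s₁) N.normalCore hNc ?_ x hJ hK
  intro t t' p r e1 e2 h
  have h0 : ∀ {b' c' : kˣ}, (ep α : OctL E a b' c') = ⟨⟨1 / 2, 1 / (2 * α), 0, 0⟩, 0⟩ := rfl
  have hT : ∀ x y : E, tripO E ht ⟨⟨x, y, 0, 0⟩, 0⟩ = ⟨⟨x, y, 0, 0⟩, 0⟩ := fun x y => by
    rw [tripO_apply]
    exact H24.emb_torus _ _ x y
  have h1 : (s t).1 (ep α) = ((H637.tripHom ht).comp s₁ t').1 (ep α) := by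
    rw [hs, e1, H637.psiL_torus, h0, H637.shortFun_torus]
    conv_rhs => rw [← hT]
    rw [MonoidHom.comp_apply, H637.tripHom_apply, hs₁, e2, H637.psiL_torus, H637.shortFun_torus, hT]
  have h2 : (((H637.tripHom ht).comp s₁ t')⁻¹ * s t).1 (ep α) = ep α := by
    rw [Subgroup.coe_mul, Subgroup.coe_inv, LinearEquiv.mul_apply, h1, ← LinearEquiv.mul_apply,
      inv_mul_cancel]
    rfl
  obtain ⟨h3, h4⟩ := mem_Rs.1 (H369.autI_mem H (((H637.tripHom ht).comp s₁ t')⁻¹ * s t).2 h2)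
  have h5 := mem_fres.1 h4 _ hNc
  have h6 := mul_mem h h5
  have h7 : (H637.tripHom ht).comp s₁ t' * (((H637.tripHom ht).comp s₁ t')⁻¹ * s t) = s t := by group
  rw [← h7]
  exact h6

end arith

end Vale.Agent.P011.D4X
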