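import Vale.Agent.P011.D4X.H637.Dens

/-!
Block D4X: conjugates of a pure quaternion near given real pure quaternions.
-/

open NumberField Topology

namespace Vale.Agent.P011.D4X.H637

open Vale.Agent.P011.MPQ

/-- The reduced norm of a quaternion algebra over any ring. -/
def qn {R : Type} [CommRing R] {A B : R} (x : QuaternionAlgebra R A 0 B) : R :=
  x.re ^ 2 - A * x.imI ^ 2 - B * x.imJ ^ 2 + A * B * x.imK ^ 2

theorem qn_eq {F : Type} [Field F] {a b : Fˣ} (x : Qt a b) : qn x = nrd x := rfl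

theorem mul_star_qn {R : Type} [CommRing R] {A B : R} (x : QuaternionAlgebra R A 0 B) :
    x * star x = qn x • (1 : QuaternionAlgebra R A 0 B) := by
  ext <;> simp [qn] <;> ring

theorem sq_pure {R : Type} [CommRing R] {A B : R} {x : QuaternionAlgebra R A 0 B}
    (h : x.re = 0) : x * x = (-qn x) • (1 : QuaternionAlgebra R A 0 B) := by
  ext <;> simp [qn, h] <;> ring

/-- Two pure quaternions with the same nonzero square are conjugate. -/
theorem exists_g {K : Type} [Field K] [CharZero K] {A B : K} (hA : A ≠ 0) (hB : B ≠ 0)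
    {x w : QuaternionAlgebra K A 0 B} (hx : x.re = 0) (hw : w.re = 0) (h : qn x = qn w)
    (h0 : qn w ≠ 0) : ∃ g : QuaternionAlgebra K A 0 B, qn g ≠ 0 ∧ x * g = g * w := by
  have key : ∀ z : QuaternionAlgebra K A 0 B, x * (x * z + z * w) = (x * z + z * w) * w := by
    intro z
    rw [mul_add, add_mul, ← mul_assoc, sq_pure hx, mul_assoc z w w, sq_pure hw, h, smul_mul_assoc,
      one_mul, mul_smul_comm, mul_one, add_comm, mul_assoc]
  by_contra hcon
  push Not at hcon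
  have h1 : ∀ z : QuaternionAlgebra K A 0 B, qn (x * z + z * w) = 0 := fun z => by
    by_contra h2
    exact hcon _ h2 (key z)
  have e : A * B * qn (x * ⟨1, 0, 0, 0⟩ + ⟨1, 0, 0, 0⟩ * w) -
      B * qn (x * ⟨0, 1, 0, 0⟩ + ⟨0, 1, 0, 0⟩ * w) -
      A * qn (x * ⟨0, 0, 1, 0⟩ + ⟨0, 0, 1, 0⟩ * w) +
      qn (x * ⟨0, 0, 0, 1⟩ + ⟨0, 0, 0, 1⟩ * w) = 4 * (A * B) * (qn x + qn w) := by
    simp [qn, hx, hw]
    ring
  rw [h1, h1, h1, h1, h] at e
  have h2 : 8 * (A * B * qn w) = 0 := by linear_combination -e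
  have h3 : A * B * qn w ≠ 0 := mul_ne_zero (mul_ne_zero hA hB) h0
  rw [mul_eq_zero] at h2
  rcases h2 with h2 | h2
  · norm_num at h2
  · exact h3 h2

/-- The quaternion with given coordinates. -/
def mk4 (A B : ℝ) (v : Fin 4 → ℝ) : QuaternionAlgebra ℝ A 0 B := ⟨v 0, v 1, v 2, v 3⟩

/-- The image of a quaternion at a real place. -/
def rt {F : Type} [Field F] {A B : Fˣ} (τ : F →+* ℝ) (x : Qt A B) :
    QuaternionAlgebra ℝ (τ A) 0 (τ B) := ⟨τ x.re, τ x.imI, τ x.imJ, τ x.imK⟩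

section rt

variable {F : Type} [Field F] {A B : Fˣ} (τ : F →+* ℝ)

theorem rt_mul (x y : Qt A B) : rt τ (x * y) = rt τ x * rt τ y := by
  ext <;> simp [rt]

theorem rt_star (x : Qt A B) : rt τ (star x) = star (rt τ x) := by
  ext <;> simp [rt]

theorem rt_smul (t : F) (x : Qt A B) : rt τ (t • x) = τ t • rt τ x := by
  ext <;> simp [rt]

theorem qn_rt (x : Qt A B) : qn (rt τ x) = τ (nrd x) := by
  simp [rt, qn, nrd]

end rt

/-- **Conjugates near given elements**: the real places may be split or not. -/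
theorem exists_conj {F : Type} [Field F] [NumberField F] {A B : Fˣ} (S : Finset (F →+* ℝ))
    {w : Qt A B} (hw : w.re = 0) (hw0 : nrd w ≠ 0)
    (x : ∀ τ : F →+* ℝ, QuaternionAlgebra ℝ (τ A) 0 (τ B)) (hx : ∀ τ ∈ S, (x τ).re = 0)
    (hxn : ∀ τ ∈ S, qn (x τ) = τ (nrd w)) {ε : ℝ} (hε : 0 < ε) :
    ∃ g y : Qt A B, nrd g ≠ 0 ∧ y * g = g * w ∧ y.re = 0 ∧ nrd y = nrd w ∧
      ∀ τ ∈ S, |τ y.imI - (x τ).imI| < ε ∧ |τ y.imJ - (x τ).imJ| < ε ∧
        |τ y.imK - (x τ).imK| < ε := by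
  classical
  rcases S.eq_empty_or_nonempty with rfl | ⟨τ₀, hτ₀⟩
  · exact ⟨1, w, by simp [nrd], by rw [mul_one, one_mul], hw, rfl,
      fun τ h => absurd h (Finset.notMem_empty τ)⟩
  have hA : ∀ τ : F →+* ℝ, τ A ≠ 0 := fun τ => (map_ne_zero τ).2 A.ne_zero
  have hB : ∀ τ : F →+* ℝ, τ B ≠ 0 := fun τ => (map_ne_zero τ).2 B.ne_zero
  have hg : ∀ τ : F →+* ℝ, ∃ v : Fin 4 → ℝ, τ ∈ S → qn (mk4 (τ A) (τ B) v) ≠ 0 ∧
      x τ * mk4 (τ A) (τ B) v = mk4 (τ A) (τ B) v * rt τ w := by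
    intro τ
    by_cases h : τ ∈ S
    · obtain ⟨g, h1, h2⟩ := exists_g (hA τ) (hB τ) (hx τ h) (w := rt τ w) (by simp [rt, hw])
        (by rw [hxn τ h, qn_rt]) (by rw [qn_rt]; exact (map_ne_zero τ).2 hw0)
      exact ⟨![g.re, g.imI, g.imJ, g.imK], fun _ => ⟨h1, h2⟩⟩
    · exact ⟨0, fun h' => absurd h' h⟩
  choose v hv using hg
  -- the conjugation
  let G : ∀ τ : F →+* ℝ, (Fin 4 → ℝ) → QuaternionAlgebra ℝ (τ A) 0 (τ B) := fun τ u =>
    (qn (mk4 (τ A) (τ B) u))⁻¹ • (mk4 (τ A) (τ B) u * rt τ w * star (mk4 (τ A) (τ B) u))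
  have hGv : ∀ τ ∈ S, G τ (v τ) = x τ := by
    intro τ hτ
    obtain ⟨h1, h2⟩ := hv τ hτ
    simp only [G]
    rw [← h2, mul_assoc, mul_star_qn, mul_smul_comm, mul_one, smul_smul, inv_mul_cancel₀ h1,
      one_smul]
  have hq : ∀ τ : F →+* ℝ, Continuous fun u : Fin 4 → ℝ => qn (mk4 (τ A) (τ B) u) := by
    intro τ
    simp only [qn, mk4]
    fun_prop
  have hc1 : ∀ τ ∈ S, ContinuousAt (fun u => (G τ u).imI) (v τ) := by
    intro τ hτ
    have : (fun u => (G τ u).imI) = fun u => (qn (mk4 (τ A) (τ B) u))⁻¹ *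
        (mk4 (τ A) (τ B) u * rt τ w * star (mk4 (τ A) (τ B) u)).imI := by
      funext u
      simp [G]
    rw [this]
    refine ContinuousAt.mul (ContinuousAt.inv₀ (hq τ).continuousAt (hv τ hτ).1) ?_
    refine Continuous.continuousAt ?_
    simp only [mk4, QuaternionAlgebra.imI_mul, QuaternionAlgebra.imI_star,
      QuaternionAlgebra.imJ_star, QuaternionAlgebra.imK_star, QuaternionAlgebra.re_star,
      QuaternionAlgebra.re_mul, QuaternionAlgebra.imJ_mul, QuaternionAlgebra.imK_mul]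
    fun_prop
  have hc2 : ∀ τ ∈ S, ContinuousAt (fun u => (G τ u).imJ) (v τ) := by
    intro τ hτ
    have : (fun u => (G τ u).imJ) = fun u => (qn (mk4 (τ A) (τ B) u))⁻¹ *
        (mk4 (τ A) (τ B) u * rt τ w * star (mk4 (τ A) (τ B) u)).imJ := by
      funext u
      simp [G]
    rw [this]
    refine ContinuousAt.mul (ContinuousAt.inv₀ (hq τ).continuousAt (hv τ hτ).1) ?_
    refine Continuous.continuousAt ?_
    simp only [mk4, QuaternionAlgebra.imI_mul, QuaternionAlgebra.imI_star,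
      QuaternionAlgebra.imJ_star, QuaternionAlgebra.imK_star, QuaternionAlgebra.re_star,
      QuaternionAlgebra.re_mul, QuaternionAlgebra.imJ_mul, QuaternionAlgebra.imK_mul]
    fun_prop
  have hc3 : ∀ τ ∈ S, ContinuousAt (fun u => (G τ u).imK) (v τ) := by
    intro τ hτ
    have : (fun u => (G τ u).imK) = fun u => (qn (mk4 (τ A) (τ B) u))⁻¹ *
        (mk4 (τ A) (τ B) u * rt τ w * star (mk4 (τ A) (τ B) u)).imK := by
      funext u
      simp [G]
    rw [this]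
    refine ContinuousAt.mul (ContinuousAt.inv₀ (hq τ).continuousAt (hv τ hτ).1) ?_
    refine Continuous.continuousAt ?_
    simp only [mk4, QuaternionAlgebra.imI_mul, QuaternionAlgebra.imI_star,
      QuaternionAlgebra.imJ_star, QuaternionAlgebra.imK_star, QuaternionAlgebra.re_star,
      QuaternionAlgebra.re_mul, QuaternionAlgebra.imJ_mul, QuaternionAlgebra.imK_mul]
    fun_prop
  obtain ⟨u, hu⟩ := exists_near S (fun τ => {u | qn (mk4 (τ A) (τ B) u) ≠ 0 ∧
      |(G τ u).imI - (x τ).imI| < ε ∧ |(G τ u).imJ - (x τ).imJ| < ε ∧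
        |(G τ u).imK - (x τ).imK| < ε}) v (fun τ hτ => by
    have h0 : {u | qn (mk4 (τ A) (τ B) u) ≠ 0} ∈ 𝓝 (v τ) :=
      (isOpen_ne_fun (hq τ) continuous_const).mem_nhds (hv τ hτ).1
    have h1 := (hc1 τ hτ) (Metric.ball_mem_nhds _ hε)
    have h2 := (hc2 τ hτ) (Metric.ball_mem_nhds _ hε)
    have h3 := (hc3 τ hτ) (Metric.ball_mem_nhds _ hε)
    filter_upwards [h0, h1, h2, h3] with u e0 e1 e2 e3
    rw [Set.mem_preimage, Metric.mem_ball, Real.dist_eq, hGv τ hτ] at e1 e2 e3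
    exact ⟨e0, e1, e2, e3⟩)
  let g : Qt A B := ⟨u 0, u 1, u 2, u 3⟩
  have hgτ : ∀ τ : F →+* ℝ, rt τ g = mk4 (τ A) (τ B) (fun i => τ (u i)) := fun τ => rfl
  have hg0 : nrd g ≠ 0 := by
    intro h
    refine (hu τ₀ hτ₀).1 ?_
    rw [← hgτ, qn_rt, h, map_zero]
  have hgg : star g * g = nrd g • (1 : Qt A B) := by
    ext <;> simp [nrd] <;> ring
  let y : Qt A B := (nrd g)⁻¹ • (g * w * star g)
  have hy : ∀ τ : F →+* ℝ, rt τ y = G τ (fun i => τ (u i)) := by
    intro τ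
    simp only [y, G]
    rw [rt_smul, rt_mul, rt_mul, rt_star, hgτ, map_inv₀, ← qn_rt, hgτ]
  have hyg : y * g = g * w := by
    simp only [y]
    rw [smul_mul_assoc, mul_assoc (g * w), hgg, mul_smul_comm, mul_one, smul_smul,
      inv_mul_cancel₀ hg0, one_smul]
  have hy0 : y.re = 0 := by
    have : (g * w * star g).re = 0 := by
      simp [hw]
      ring
    simp only [y, QuaternionAlgebra.re_smul, this, smul_zero]
  refine ⟨g, y, hg0, hyg, hy0, ?_, fun τ hτ => ?_⟩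
  · have h1 := congrArg nrd hyg
    rw [nrd_mul, nrd_mul] at h1
    exact mul_right_cancel₀ hg0 (h1.trans (mul_comm _ _))
  · obtain ⟨-, e1, e2, e3⟩ := hu τ hτ
    rw [← hy τ] at e1 e2 e3
    exact ⟨e1, e2, e3⟩

end Vale.Agent.P011.D4X.H637
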