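import Vale.Agent.P011.RP.Dense
import Vale.Agent.P011.D4.Defs3
import Vale.Agent.P011.D4.Triple

/-!
Block D4X: weak approximation at real places for vectors of given norm and for conjugates of
quaternions.
-/

open NumberField Topology

namespace Vale.Agent.P011.D4X.H637

open Vale.Agent.P011.MPQ Vale.Agent.P011.D4 Vale.Agent.P011.D4.Oct

/-- Vectors over a number field near given real vectors. -/
theorem exists_near {k : Type} [Field k] [NumberField k] {n : ℕ} (S : Finset (k →+* ℝ))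
    (U : (k →+* ℝ) → Set (Fin n → ℝ)) (y : (k →+* ℝ) → Fin n → ℝ) (hU : ∀ τ ∈ S, U τ ∈ 𝓝 (y τ)) :
    ∃ v : Fin n → k, ∀ τ ∈ S, (fun i => τ (v i)) ∈ U τ := by
  classical
  have h1 : ∀ τ : k →+* ℝ, ∃ ε : ℝ, 0 < ε ∧ (τ ∈ S → Metric.ball (y τ) ε ⊆ U τ) := by
    intro τ
    by_cases h : τ ∈ S
    · obtain ⟨ε, hε, h2⟩ := Metric.mem_nhds_iff.1 (hU τ h)
      exact ⟨ε, hε, fun _ => h2⟩
    · exact ⟨1, one_pos, fun h' => absurd h' h⟩
  choose ε hε hb using h1
  obtain ⟨δ, hδ, hδε⟩ : ∃ δ : ℝ, 0 < δ ∧ ∀ τ : k →+* ℝ, δ ≤ ε τ := by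
    rcases isEmpty_or_nonempty (k →+* ℝ) with h | h
    · exact ⟨1, one_pos, fun τ => (h.false τ).elim⟩
    · obtain ⟨τ₀, h0⟩ := Finite.exists_min ε
      exact ⟨ε τ₀, hε τ₀, h0⟩
  choose v hv using fun i : Fin n => RP.real_dense (fun τ : k →+* ℝ => y τ i) hδ
  refine ⟨v, fun τ hτ => hb τ hτ ?_⟩
  rw [Metric.mem_ball]
  refine lt_of_lt_of_le ?_ (hδε τ)
  rw [dist_pi_lt_iff hδ]
  intro i
  rw [Real.dist_eq]
  exact hv i τ

/-- **Weak approximation on a quadric**, away from a tangent section. -/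
theorem exists_quadric {k : Type} [Field k] [NumberField k] {n : ℕ} (d x : Fin n → k)
    (S : Finset (k →+* ℝ)) (y : (k →+* ℝ) → Fin n → ℝ)
    (hy : ∀ τ ∈ S, ∑ i, τ (d i) * (y τ i) ^ 2 = ∑ i, τ (d i) * (τ (x i)) ^ 2)
    (hne : ∀ τ ∈ S, ∑ i, τ (d i) * (τ (x i) - y τ i) ^ 2 ≠ 0) {ε : ℝ} (hε : 0 < ε) :
    ∃ z : Fin n → k, ∑ i, d i * z i ^ 2 = ∑ i, d i * x i ^ 2 ∧
      ∀ τ ∈ S, ∀ i, |τ (z i) - y τ i| < ε := by
  classical
  rcases S.eq_empty_or_nonempty with rfl | ⟨τ₀, hτ₀⟩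
  · exact ⟨x, rfl, fun τ h => absurd h (Finset.notMem_empty τ)⟩
  -- the reflection
  let F : (k →+* ℝ) → (Fin n → ℝ) → (Fin n → ℝ) := fun τ v i =>
    τ (x i) - 2 * (∑ j, τ (d j) * (τ (x j) * v j)) / (∑ j, τ (d j) * v j ^ 2) * v i
  have hF : ∀ τ ∈ S, F τ (fun i => τ (x i) - y τ i) = y τ := by
    intro τ hτ
    have h1 := hne τ hτ
    have h2 : 2 * (∑ j, τ (d j) * (τ (x j) * (τ (x j) - y τ j))) =
        ∑ j, τ (d j) * (τ (x j) - y τ j) ^ 2 := by
      have e1 : ∀ j, τ (d j) * (τ (x j) - y τ j) ^ 2 =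
          2 * (τ (d j) * (τ (x j) * (τ (x j) - y τ j))) +
            (τ (d j) * (y τ j) ^ 2 - τ (d j) * (τ (x j)) ^ 2) := fun j => by ring
      simp only [e1]
      rw [Finset.sum_add_distrib, Finset.sum_sub_distrib, hy τ hτ, sub_self, add_zero,
        Finset.mul_sum]
    funext i
    simp only [F]
    rw [h2, div_self h1, one_mul]
    ring
  have hc : ∀ τ ∈ S, ContinuousAt (F τ) (fun i => τ (x i) - y τ i) := by
    intro τ hτ
    have h1 := hne τ hτ
    refine continuousAt_pi.2 fun i => ?_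
    simp only [F]
    refine continuousAt_const.sub (ContinuousAt.mul (ContinuousAt.div ?_ ?_ h1) ?_)
    · exact (by fun_prop : Continuous fun v : Fin n → ℝ =>
        2 * ∑ j, τ (d j) * (τ (x j) * v j)).continuousAt
    · exact (by fun_prop : Continuous fun v : Fin n → ℝ =>
        ∑ j, τ (d j) * v j ^ 2).continuousAt
    · exact (by fun_prop : Continuous fun v : Fin n → ℝ => v i).continuousAt
  obtain ⟨v, hv⟩ := exists_near S (fun τ => {v | F τ v ∈ Metric.ball (y τ) ε ∧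
      ∑ j, τ (d j) * v j ^ 2 ≠ 0}) (fun τ i => τ (x i) - y τ i) (fun τ hτ => by
    have h1 : {v | F τ v ∈ Metric.ball (y τ) ε} ∈ 𝓝 (fun i => τ (x i) - y τ i) := by
      have h2 : Metric.ball (y τ) ε ∈ 𝓝 (F τ (fun i => τ (x i) - y τ i)) := by
        rw [hF τ hτ]
        exact Metric.ball_mem_nhds _ hε
      exact (hc τ hτ) h2
    have h3 : {v : Fin n → ℝ | ∑ j, τ (d j) * v j ^ 2 ≠ 0} ∈ 𝓝 (fun i => τ (x i) - y τ i) := by
      have h4 : IsOpen {v : Fin n → ℝ | ∑ j, τ (d j) * v j ^ 2 ≠ 0} :=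
        isOpen_ne_fun (by fun_prop) (by fun_prop)
      exact h4.mem_nhds (hne τ hτ)
    exact Filter.inter_mem h1 h3)
  have hn : ∑ j, d j * v j ^ 2 ≠ 0 := by
    intro h
    refine (hv τ₀ hτ₀).2 ?_
    have h1 := congrArg τ₀ h
    simpa only [map_sum, map_mul, map_pow, map_zero] using h1
  refine ⟨fun i => x i - 2 * (∑ j, d j * (x j * v j)) / (∑ j, d j * v j ^ 2) * v i, ?_, ?_⟩
  · set B := ∑ j, d j * (x j * v j) with hB
    set N := ∑ j, d j * v j ^ 2 with hN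
    have e1 : ∀ i, d i * (x i - 2 * B / N * v i) ^ 2 =
        d i * x i ^ 2 - 4 * B / N * (d i * (x i * v i)) + (2 * B / N) ^ 2 * (d i * v i ^ 2) :=
      fun i => by ring
    simp only [e1]
    rw [Finset.sum_add_distrib, Finset.sum_sub_distrib, ← Finset.mul_sum, ← Finset.mul_sum, ← hB,
      ← hN]
    field_simp
    ring
  · intro τ hτ i
    have h1 := (hv τ hτ).1
    rw [Metric.mem_ball, dist_pi_lt_iff hε] at h1
    have h2 := h1 i
    rw [Real.dist_eq] at h2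
    have h3 : τ (x i - 2 * (∑ j, d j * (x j * v j)) / (∑ j, d j * v j ^ 2) * v i) =
        F τ (fun i => τ (v i)) i := by
      simp only [F, map_sub, map_mul, map_div₀, map_sum, map_pow, map_ofNat]
    rw [h3]
    exact h2

end Vale.Agent.P011.D4X.H637
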