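import Vale.Agent.P011.D4X.H637.Odd
import Vale.Agent.P011.D4.NTS
import Vale.Agent.P011.Pow.CentT

/-!
Block D4X: the choice of the second quaternion algebra.
-/

open NumberField IsDedekindDomain Topology

namespace Vale.Agent.P011.D4X.H637

open Vale.Agent.P011.MPQ Vale.Agent.P011.Arith Vale.Agent.P011.D4

variable {k L : Type} [Field k] [NumberField k] [Field L] [NumberField L] [Algebra k L]
  {ρ : L ≃ₐ[k] L}

/-- There is a second quaternion algebra in the octonion algebra which splits at the places where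
the twist of the first one does not. -/
theorem exists_u (hfk : Module.finrank k L = 3) (hρ : ρ ≠ 1) (h3 : ∀ x, ρ (ρ (ρ x)) = x)
    (a b c : kˣ) (q : Lˣ) : ∃ (u : Qt a b) (b₁ : kˣ), (b₁ : k) = c * nrd u ∧
      (∀ φ : k →+* ℝ, 0 < φ (nrd u)) ∧
      ∀ w, Ram (up L a) (q * up L b) w → ¬ Ram (up L a) (q * up L b₁) w := by
  obtain ⟨S, hS⟩ : ∃ S : Set (HeightOneSpectrum (𝓞 k)), S = {v | ∃ w ∈
      {w : HeightOneSpectrum (𝓞 L) | Ram (up L a) (q * up L b) w},
      w.asIdeal.comap (algebraMap (𝓞 k) (𝓞 L)) = v.asIdeal} := ⟨_, rfl⟩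
  have hfin : S.Finite := by
    rw [hS]
    exact Pow.below_finite (ram_finite _ _)
  have key : ∀ v : HeightOneSpectrum (𝓞 k), ∃ δ : kˣ, v ∈ S → δ ∉ NF a ⊔ LS (v.valuation k) := by
    intro v
    by_cases hv : v ∈ S
    · rw [hS] at hv
      obtain ⟨w, hw, hwv⟩ := hv
      have ha : a ∉ LS (v.valuation k) := by
        intro ha
        have h1 : up L a ∈ LS (w.valuation L) := LS_map hwv ha
        apply hw
        rw [NF_sup_of_mem' _ h1]
        exact Subgroup.mem_top _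
      have h2 := NF_sup_ne_top a (Sum.inl v) ha
      obtain ⟨δ, hδ⟩ : ∃ δ : kˣ, δ ∉ NF a ⊔ LS (v.valuation k) := by
        by_contra hcon
        push Not at hcon
        exact h2 ((Subgroup.eq_top_iff' _).mpr hcon)
      exact ⟨δ, fun _ => hδ⟩
    · exact ⟨1, fun h => absurd h hv⟩
  choose δ hδ using key
  obtain ⟨f, hf⟩ := weak_approx' hfin (Sum.elim (fun v => c⁻¹ * b * δ v) (fun _ => 1) : Pl k → kˣ)
  have hr : ∀ φ : k →+* ℝ, 0 < φ f := by
    intro φ
    have h := hf (Sum.inr φ) inr_mem_SP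
    rw [Sum.elim_inr, div_one] at h
    exact h
  obtain ⟨u, hu⟩ := exists_nrd (a := a) (b := b) f fun φ _ _ => hr φ
  refine ⟨u, c * f, by rw [Units.val_mul, hu], fun φ => by rw [hu]; exact hr φ, ?_⟩
  intro w h1 h2
  obtain ⟨v, hv⟩ := Sch.exists_below (F := k) w
  have hvS : v ∈ S := by
    rw [hS]
    exact ⟨w, h1, hv⟩
  have ha : up L a ∉ LS (w.valuation L) := by
    intro ha
    apply h1
    rw [NF_sup_of_mem' _ ha]
    exact Subgroup.mem_top _
  have h4 : (q * up L b) * (q * up L (c * f)) ∈ NF (up L a) ⊔ LS (w.valuation L) := by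
    rw [Subgroup.mul_mem_iff_of_index_two (local_index_two w _ ha)]
    exact ⟨fun h => absurd h h1, fun h => absurd h h2⟩
  have h5 : up L (b * (c * f)) ∈ NF (up L a) ⊔ LS (w.valuation L) := by
    have hq2 : q * q ∈ NF (up L a) ⊔ LS (w.valuation L) :=
      (le_sup_right : LS (w.valuation L) ≤ _) (Sq_le_LS _ ⟨q, by simp [sq]⟩)
    have e : up L (b * (c * f)) = (q * q)⁻¹ * ((q * up L b) * (q * up L (c * f))) := by
      rw [up, map_mul, eq_inv_mul_iff_mul_eq]
      exact mul_mul_mul_comm _ _ _ _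
    rw [e]
    exact mul_mem (inv_mem hq2) h4
  have h6 := odd_local hfk hρ h3 hv h5
  apply hδ v hvS
  have h7 := hf (Sum.inl v) (inl_mem_SP.mpr hvS)
  rw [Sum.elim_inl] at h7
  have hb2 : b * b ∈ NF a ⊔ LS (v.valuation k) :=
    (le_sup_right : LS (v.valuation k) ≤ _) (Sq_le_LS _ ⟨b, by simp [sq]⟩)
  have e : δ v = (b * (c * f)) * (b * b)⁻¹ * (f / (c⁻¹ * b * δ v))⁻¹ := by
    apply Units.ext
    have h8 : (b : k) ≠ 0 := b.ne_zero
    have h9 : (c : k) ≠ 0 := c.ne_zero
    have h10 : (f : k) ≠ 0 := f.ne_zero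
    simp only [Units.val_mul, Units.val_inv_eq_inv_val, Units.val_div_eq_div_val]
    field_simp
  rw [e]
  exact mul_mem (mul_mem h6 (inv_mem hb2))
    (inv_mem ((le_sup_right : LS (v.valuation k) ≤ _) h7))

end Vale.Agent.P011.D4X.H637
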