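import Vale.Agent.P011.D4X.H637.TorAbs
import Vale.Agent.P011.E6I.Gal

/-!
Block D4X: in a cyclic cubic extension the local nonnorms of a quadratic extension of the ground
field remain nonnorms.
-/

open NumberField IsDedekindDomain Topology
open WithZero

namespace Vale.Agent.P011.D4X.H637

open Vale.Agent.P011.MPQ Vale.Agent.P011.Arith Vale.Agent.P011.D4

section ideal

variable {R : Type} [CommRing R]

/-- Separation of a maximal ideal from its conjugates. -/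
theorem exists_sep (f : R →+* R) (hf : Function.Bijective f) (hf3 : ∀ x, f (f (f x)) = x)
    {P : Ideal R} (hP : P.IsMaximal) (hne : P.map f ≠ P) (N : ℕ) :
    ∃ u : R, 1 - u ∈ P ^ N ∧ f u ∈ P ^ N ∧ f (f u) ∈ P ^ N := by
  have hmap : ∀ I : Ideal R, ((I.map f).map f).map f = I := by
    intro I
    rw [Ideal.map_map, Ideal.map_map]
    have h : (f.comp f).comp f = RingHom.id R := RingHom.ext hf3
    rw [h, Ideal.map_id]
  have h1 : (P.map f).IsMaximal := Ideal.IsMaximal.map_bijective f hf hP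
  have h2 : ((P.map f).map f).IsMaximal := Ideal.IsMaximal.map_bijective f hf h1
  have hne2 : P ≠ (P.map f).map f := by
    intro h
    apply hne
    have h3 := congrArg (Ideal.map f) h
    rw [hmap] at h3
    exact h3
  have c1 : IsCoprime P (P.map f) := Ideal.isCoprime_iff_sup_eq.2 (hP.coprime_of_ne h1 hne.symm)
  have c2 : IsCoprime P ((P.map f).map f) :=
    Ideal.isCoprime_iff_sup_eq.2 (hP.coprime_of_ne h2 hne2)
  obtain ⟨i, hi, j, hj, hij⟩ := Ideal.isCoprime_iff_exists.1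
    ((c1.pow (m := N) (n := N)).mul_right (c2.pow (m := N) (n := N)))
  refine ⟨j, ?_, ?_, ?_⟩
  · rw [← hij, add_sub_cancel_right]
    exact hi
  · have h3 := Ideal.mem_map_of_mem f hj
    have e : Ideal.map f ((P.map f) ^ N * ((P.map f).map f) ^ N) =
        ((P.map f).map f) ^ N * P ^ N := by
      rw [Ideal.map_mul, Ideal.map_pow, Ideal.map_pow, hmap P]
    rw [e] at h3
    exact (Ideal.mul_le_right : ((P.map f).map f) ^ N * P ^ N ≤ P ^ N) h3
  · have h3 := Ideal.mem_map_of_mem f (Ideal.mem_map_of_mem f hj)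
    have e : Ideal.map f (Ideal.map f ((P.map f) ^ N * ((P.map f).map f) ^ N)) =
        P ^ N * (P.map f) ^ N := by
      rw [Ideal.map_mul, Ideal.map_mul, Ideal.map_pow, Ideal.map_pow, Ideal.map_pow, hmap P]
    rw [e] at h3
    exact (Ideal.mul_le_left : P ^ N * (P.map f) ^ N ≤ P ^ N) h3

end ideal

variable {k L : Type} [Field k] [NumberField k] [Field L] [NumberField L] [Algebra k L]
  {ρ : L ≃ₐ[k] L}

/-- The automorphism of the ring of integers. -/
noncomputable def gO (ρ : L ≃ₐ[k] L) : 𝓞 L →+* 𝓞 L :=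
  (RingOfIntegers.mapRingEquiv (ρ : L ≃+* L) : 𝓞 L ≃+* 𝓞 L)

omit [NumberField k] [NumberField L] in
theorem coe_gO (x : 𝓞 L) : ((gO ρ x : 𝓞 L) : L) = ρ (x : L) := rfl

omit [NumberField k] [NumberField L] in
theorem gO_bijective : Function.Bijective (gO ρ) :=
  (RingOfIntegers.mapRingEquiv (ρ : L ≃+* L) : 𝓞 L ≃+* 𝓞 L).bijective

omit [NumberField k] [NumberField L] in
theorem gO3 (h3 : ∀ x, ρ (ρ (ρ x)) = x) (x : 𝓞 L) : gO ρ (gO ρ (gO ρ x)) = x := by
  apply RingOfIntegers.ext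
  rw [coe_gO, coe_gO, coe_gO, h3]

/-- If the place is not fixed by the automorphism then the ground field is dense. -/
theorem dens_of_ne (hρ : ρ ≠ 1) (hfk : Module.finrank k L = 3) (h3 : ∀ x, ρ (ρ (ρ x)) = x)
    {w : HeightOneSpectrum (𝓞 L)}
    (hne : w.asIdeal.map (gO ρ) ≠ w.asIdeal) (y : L) {ε : Z0} (hε : ε ≠ 0) :
    ∃ y' : k, w.valuation L (algebraMap k L y' - y) < ε := by
  obtain ⟨e, rfl⟩ := Sch.exp_of_ne_zero hε
  obtain ⟨M, hM⟩ : ∃ M : ℤ, w.valuation L y ≤ exp M ∧ w.valuation L (ρ y) ≤ exp M ∧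
      w.valuation L (ρ (ρ y)) ≤ exp M := by
    have h : ∀ t : L, ∃ M : ℤ, w.valuation L t ≤ exp M := by
      intro t
      by_cases h0 : w.valuation L t = 0
      · exact ⟨0, by rw [h0]; exact zero_le⟩
      · obtain ⟨n, hn⟩ := Sch.exp_of_ne_zero h0
        exact ⟨n, hn.le⟩
    obtain ⟨m0, h0⟩ := h y
    obtain ⟨m1, h1⟩ := h (ρ y)
    obtain ⟨m2, h2⟩ := h (ρ (ρ y))
    refine ⟨max m0 (max m1 m2), h0.trans ?_, h1.trans ?_, h2.trans ?_⟩
    · exact exp_le_exp.2 (le_max_left _ _)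
    · exact exp_le_exp.2 ((le_max_left _ _).trans (le_max_right _ _))
    · exact exp_le_exp.2 ((le_max_right _ _).trans (le_max_right _ _))
  obtain ⟨N, hN⟩ : ∃ N : ℕ, -(N : ℤ) + M < e := by
    refine ⟨(M - e).toNat + 1, ?_⟩
    have := Int.self_le_toNat (M - e)
    push_cast
    omega
  obtain ⟨u, hu0, hu1, hu2⟩ := exists_sep (gO ρ) gO_bijective (gO3 h3) w.isMaximal hne N
  have hval : ∀ z : 𝓞 L, z ∈ w.asIdeal ^ N → w.valuation L (z : L) ≤ exp (-(N : ℤ)) := by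
    intro z hz
    rw [w.valuation_of_algebraMap]
    exact (w.intValuation_le_pow_iff_mem z N).2 hz
  have hv0 := hval _ hu0
  have hv1 := hval _ hu1
  have hv2 := hval _ hu2
  rw [coe_gO] at hv1
  rw [coe_gO, coe_gO] at hv2
  obtain ⟨y', hy'⟩ := E6I.rho_fix hfk hρ (t := (u : L) * y + ρ ((u : L) * y) +
    ρ (ρ ((u : L) * y))) (by
      rw [map_add, map_add, h3]; ring)
  refine ⟨y', ?_⟩
  have key : ∀ {s t : L}, w.valuation L s ≤ exp (-(N : ℤ)) → w.valuation L t ≤ exp M →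
      w.valuation L (s * t) < exp e := by
    intro s t hs ht
    rw [map_mul]
    calc w.valuation L s * w.valuation L t ≤ exp (-(N : ℤ)) * exp M := mul_le_mul' hs ht
      _ = exp (-(N : ℤ) + M) := (exp_add _ _).symm
      _ < exp e := exp_lt_exp.2 hN
  have e1 : algebraMap k L y' - y = -(((1 - u : 𝓞 L) : L) * y) + ρ (u : L) * ρ y +
      ρ (ρ (u : L)) * ρ (ρ y) := by
    rw [hy', map_mul, map_mul]
    have : ((1 - u : 𝓞 L) : L) = 1 - (u : L) := by simp
    rw [this]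
    ring
  rw [e1]
  refine Valuation.map_add_lt _ (Valuation.map_add_lt _ ?_ (key hv1 hM.2.1)) (key hv2 hM.2.2)
  rw [Valuation.map_neg]
  exact key hv0 hM.1

omit [NumberField k] in
/-- If the place is fixed by the automorphism then so is its valuation. -/
theorem val_of_eq {w : HeightOneSpectrum (𝓞 L)} (h : w.asIdeal.map (gO ρ) = w.asIdeal) (x : L) :
    w.valuation L (ρ x) = w.valuation L x := by
  have hint : ∀ z : 𝓞 L, w.intValuation (gO ρ z) = w.intValuation z := by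
    intro z
    have key : ∀ n : ℕ, w.intValuation (gO ρ z) ≤ exp (-(n : ℤ)) ↔
        w.intValuation z ≤ exp (-(n : ℤ)) := by
      intro n
      rw [w.intValuation_le_pow_iff_mem, w.intValuation_le_pow_iff_mem]
      have h1 : (w.asIdeal ^ n).map (gO ρ) = w.asIdeal ^ n := by rw [Ideal.map_pow, h]
      constructor
      · intro h2
        rw [← h1, Ideal.mem_map_iff_of_surjective _ gO_bijective.2] at h2
        obtain ⟨y, hy, hyz⟩ := h2
        rwa [← gO_bijective.1 hyz]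
      · intro h2
        rw [← h1]
        exact Ideal.mem_map_of_mem _ h2
    exact Z0_ext (w.intValuation_le_one _) (w.intValuation_le_one _) key
  obtain ⟨r, s, hs, rfl⟩ := IsFractionRing.div_surjective (A := 𝓞 L) x
  have hv : ∀ z : 𝓞 L, w.valuation L (ρ (algebraMap (𝓞 L) L z)) =
      w.valuation L (algebraMap (𝓞 L) L z) := by
    intro z
    have h1 : ρ (algebraMap (𝓞 L) L z) = algebraMap (𝓞 L) L (gO ρ z) := rfl
    rw [h1, w.valuation_of_algebraMap, w.valuation_of_algebraMap, hint]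
  rw [map_div₀, map_div₀, map_div₀, hv, hv]

section norm

omit [NumberField L] in
/-- The norm of a norm. -/
theorem norm_NF (hfk : Module.finrank k L = 3) (hρ : ρ ≠ 1) (h3 : ∀ x, ρ (ρ (ρ x)) = x)
    (a : k) (y₀ y₁ : L) : ∃ X Y : k,
      algebraMap k L (X ^ 2 - a * Y ^ 2) = (y₀ ^ 2 - algebraMap k L a * y₁ ^ 2) *
        ρ (y₀ ^ 2 - algebraMap k L a * y₁ ^ 2) * ρ (ρ (y₀ ^ 2 - algebraMap k L a * y₁ ^ 2)) := by
  obtain ⟨X, hX⟩ := E6I.rho_fix hfk hρ (t := y₀ * ρ y₀ * ρ (ρ y₀) +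
    algebraMap k L a * (y₀ * ρ y₁ * ρ (ρ y₁) + y₁ * ρ y₀ * ρ (ρ y₁) + y₁ * ρ y₁ * ρ (ρ y₀))) (by
      simp only [map_add, map_mul, h3, AlgEquiv.commutes]; ring)
  obtain ⟨Y, hY⟩ := E6I.rho_fix hfk hρ (t := y₁ * ρ y₀ * ρ (ρ y₀) + y₀ * ρ y₁ * ρ (ρ y₀) +
    y₀ * ρ y₀ * ρ (ρ y₁) + algebraMap k L a * (y₁ * ρ y₁ * ρ (ρ y₁))) (by
      simp only [map_add, map_mul, h3, AlgEquiv.commutes]; ring)
  refine ⟨X, Y, ?_⟩
  rw [map_sub, map_mul, map_pow, map_pow, hX, hY]
  simp only [map_sub, map_mul, map_pow, AlgEquiv.commutes]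
  ring

end norm

/-- Near one. -/
theorem mul_near {F : Type} [Field F] [NumberField F] (w : HeightOneSpectrum (𝓞 F)) {s t : F}
    (hs : w.valuation F (s - 1) < w.valuation F 4) (ht : w.valuation F (t - 1) < w.valuation F 4) :
    w.valuation F (s * t - 1) < w.valuation F 4 := by
  have e : s * t - 1 = (s - 1) + (t - 1) + (s - 1) * (t - 1) := by ring
  rw [e]
  refine Valuation.map_add_lt _ (Valuation.map_add_lt _ hs ht) ?_
  rw [map_mul]
  calc _ ≤ w.valuation F (s - 1) * 1 :=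
        mul_le_mul_right (le_trans ht.le (val_four_le _)) _
    _ < w.valuation F 4 := by rwa [mul_one]

/-- The local nonnorms of a quadratic extension remain nonnorms in a cyclic cubic extension. -/
theorem odd_local (hfk : Module.finrank k L = 3) (hρ : ρ ≠ 1) (h3 : ∀ x, ρ (ρ (ρ x)) = x)
    {v : HeightOneSpectrum (𝓞 k)} {w : HeightOneSpectrum (𝓞 L)}
    (hv : w.asIdeal.comap (algebraMap (𝓞 k) (𝓞 L)) = v.asIdeal) {a x : kˣ}
    (h : up L x ∈ NF (up L a) ⊔ LS (w.valuation L)) : x ∈ NF a ⊔ LS (v.valuation k) := by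
  obtain ⟨n, ⟨y₀, y₁, hn⟩, l, ⟨z, hz⟩, hnl⟩ := Subgroup.mem_sup.mp h
  by_cases hst : w.asIdeal.map (gO ρ) = w.asIdeal
  · -- the place is fixed: take norms
    have hinv := val_of_eq hst
    obtain ⟨X, Y, hXY⟩ := norm_NF hfk hρ h3 (a : k) y₀ y₁
    have hn' : y₀ ^ 2 - algebraMap k L a * y₁ ^ 2 = (n : L) := hn.symm
    rw [hn'] at hXY
    have hN0 : X ^ 2 - (a : k) * Y ^ 2 ≠ 0 := by
      intro h0
      rw [h0, map_zero] at hXY
      have : (n : L) * ρ n * ρ (ρ n) ≠ 0 := by simp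
      exact this hXY.symm
    obtain ⟨Z, hZ⟩ := E6I.rho_fix hfk hρ (t := (z : L) * ρ z * ρ (ρ z)) (by
      rw [map_mul, map_mul, h3]; ring)
    have hZ0 : Z ≠ 0 := by
      rintro rfl
      rw [map_zero] at hZ
      have : (z : L) * ρ z * ρ (ρ z) ≠ 0 := by simp
      exact this hZ.symm
    set nu : kˣ := Units.mk0 _ hN0 with hnu
    have h1 : x ^ 3 * nu⁻¹ ∈ LS (v.valuation k) := by
      refine ⟨Units.mk0 Z hZ0, ?_⟩
      have h4 : (4 : L) = algebraMap k L 4 := (map_ofNat _ 4).symm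
      rw [← val_lt_val_iff hv, ← h4]
      have e : algebraMap k L (((x ^ 3 * nu⁻¹ : kˣ) : k) / ((Units.mk0 Z hZ0 : kˣ) : k) ^ 2 - 1) =
          ((l : L) / z ^ 2) * (ρ ((l : L) / z ^ 2) * ρ (ρ ((l : L) / z ^ 2))) - 1 := by
        have e1 : (algebraMap k L x : L) = n * l := by
          rw [← Units.val_mul, hnl]
          rfl
        have e2 : algebraMap k L x = ρ (n : L) * ρ (l : L) := by
          rw [← map_mul, ← e1, AlgEquiv.commutes]
        have e3 : algebraMap k L x = ρ (ρ (n : L)) * ρ (ρ (l : L)) := by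
          rw [← map_mul, ← map_mul, ← e1, AlgEquiv.commutes, AlgEquiv.commutes]
        have e4 : algebraMap k L (x : k) ^ 3 = (n * l) * (ρ (n : L) * ρ (l : L)) *
            (ρ (ρ (n : L)) * ρ (ρ (l : L))) := by
          rw [← e1, ← e2, ← e3]; ring
        have hn0 : (n : L) ≠ 0 := n.ne_zero
        have hn1 : ρ (n : L) ≠ 0 := by simp
        have hn2 : ρ (ρ (n : L)) ≠ 0 := by simp
        have hz0 : (z : L) ≠ 0 := z.ne_zero
        have hz1 : ρ (z : L) ≠ 0 := by simp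
        have hz2 : ρ (ρ (z : L)) ≠ 0 := by simp
        rw [map_sub, map_one, map_div₀, Units.val_mul, Units.val_inv_eq_inv_val, map_mul,
          map_inv₀, Units.val_pow_eq_pow_val, map_pow, map_pow, hnu, Units.val_mk0,
          Units.val_mk0, hXY, hZ, e4]
        simp only [map_div₀, map_pow]
        field_simp
      rw [e]
      have hl1 : w.valuation L (ρ ((l : L) / z ^ 2) - 1) < w.valuation L 4 := by
        have : ρ ((l : L) / z ^ 2) - 1 = ρ ((l : L) / z ^ 2 - 1) := by rw [map_sub, map_one]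
        rw [this, hinv]
        exact hz
      have hl2 : w.valuation L (ρ (ρ ((l : L) / z ^ 2)) - 1) < w.valuation L 4 := by
        have : ρ (ρ ((l : L) / z ^ 2)) - 1 = ρ (ρ ((l : L) / z ^ 2) - 1) := by
          rw [map_sub, map_one]
        rw [this, hinv]
        exact hl1
      exact mul_near w hz (mul_near w hl1 hl2)
    have h2 : x = nu * (x ^ 3 * nu⁻¹ * (x⁻¹) ^ 2) := by
      have : nu * (x ^ 3 * nu⁻¹ * (x⁻¹) ^ 2) = (nu * nu⁻¹) * (x ^ 3 * (x⁻¹) ^ 2) := by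
        ac_rfl
      rw [this, mul_inv_cancel, one_mul, pow_succ' x 2, mul_assoc, ← mul_pow, mul_inv_cancel,
        one_pow, mul_one]
    rw [h2]
    exact Subgroup.mul_mem_sup ⟨X, Y, rfl⟩ (mul_mem h1 (sq_mem_LS _))
  · -- the place is not fixed: the ground field is dense
    have hdens : ∀ (y : L) {η : ℝ}, 0 < η → ∃ y' : k,
        plAbv (Sum.inl w) (algebraMap k L y' - y) < η := by
      intro y η hη
      obtain ⟨M, hM0, hM⟩ := (plAbv_nontrivial (Sum.inl w : Pl L)).exists_abv_lt_one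
      obtain ⟨m, hm⟩ := exists_pow_lt_of_lt_one hη hM
      obtain ⟨y', hy'⟩ := dens_of_ne hρ hfk h3 hst y (ε := w.valuation L (M ^ m))
        ((Valuation.ne_zero_iff _).2 (pow_ne_zero m hM0))
      refine ⟨y', ((plAbv_lt w _ _).2 hy').trans ?_⟩
      rw [map_pow]
      exact hm
    let _ : NormedField L := (plAbv (Sum.inl w : Pl L)).toNormedField
    have hnorm : ∀ x : L, ‖x‖ = plAbv (Sum.inl w : Pl L) x := fun x => rfl
    obtain ⟨A, hA⟩ : ∃ A : L, A = algebraMap k L a := ⟨_, rfl⟩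
    obtain ⟨B, hB⟩ : ∃ B : L, B = algebraMap k L x := ⟨_, rfl⟩
    have hc : Continuous fun p : L × L × L => ‖B - (p.1 ^ 2 - A * p.2.1 ^ 2) * p.2.2 ^ 2‖ -
        ‖4 * ((p.1 ^ 2 - A * p.2.1 ^ 2) * p.2.2 ^ 2)‖ := by fun_prop
    have hn' : y₀ ^ 2 - A * y₁ ^ 2 = (n : L) := by rw [hA]; exact hn.symm
    have e1 : B = n * l := by
      rw [hB, ← Units.val_mul, hnl]
      rfl
    have hnz : (n : L) * z ^ 2 ≠ 0 := mul_ne_zero n.ne_zero (pow_ne_zero 2 z.ne_zero)
    have h0 : (fun p : L × L × L => ‖B - (p.1 ^ 2 - A * p.2.1 ^ 2) * p.2.2 ^ 2‖ -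
        ‖4 * ((p.1 ^ 2 - A * p.2.1 ^ 2) * p.2.2 ^ 2)‖) (y₀, y₁, (z : L)) < 0 := by
      change ‖B - (y₀ ^ 2 - A * y₁ ^ 2) * (z : L) ^ 2‖ -
        ‖4 * ((y₀ ^ 2 - A * y₁ ^ 2) * (z : L) ^ 2)‖ < 0
      rw [hn', sub_neg, hnorm, hnorm, plAbv_lt]
      have e2 : B - (n : L) * (z : L) ^ 2 = ((l : L) / z ^ 2 - 1) * (n * z ^ 2) := by
        rw [e1]
        field_simp
      rw [e2, (w.valuation L).map_mul ((l : L) / z ^ 2 - 1) (n * z ^ 2),
        (w.valuation L).map_mul 4 (n * z ^ 2)]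
      exact mul_lt_mul_of_pos_right hz (zero_lt_iff.2 ((Valuation.ne_zero_iff _).2 hnz))
    obtain ⟨η, hη, hnear⟩ := Metric.eventually_nhds_iff.mp
      (hc.continuousAt.eventually_lt_const h0)
    obtain ⟨Y₀, hY₀⟩ := hdens y₀ hη
    obtain ⟨Y₁, hY₁⟩ := hdens y₁ hη
    obtain ⟨Z, hZ⟩ := hdens (z : L) hη
    have h4 := hnear (y := (algebraMap k L Y₀, algebraMap k L Y₁, algebraMap k L Z)) (by
      rw [Prod.dist_eq, Prod.dist_eq, dist_eq_norm, dist_eq_norm, dist_eq_norm]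
      exact max_lt hY₀ (max_lt hY₁ hZ))
    have h5 : v.valuation k ((x : k) - (Y₀ ^ 2 - a * Y₁ ^ 2) * Z ^ 2) <
        v.valuation k (4 * ((Y₀ ^ 2 - a * Y₁ ^ 2) * Z ^ 2)) := by
      rw [← val_lt_val_iff hv, ← plAbv_lt, ← hnorm, ← hnorm]
      have e2 : algebraMap k L ((x : k) - (Y₀ ^ 2 - a * Y₁ ^ 2) * Z ^ 2) =
          B - ((algebraMap k L Y₀) ^ 2 - A * (algebraMap k L Y₁) ^ 2) *
            (algebraMap k L Z) ^ 2 := by
        rw [hA, hB]
        simp
      have e3 : algebraMap k L (4 * ((Y₀ ^ 2 - a * Y₁ ^ 2) * Z ^ 2)) =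
          4 * (((algebraMap k L Y₀) ^ 2 - A * (algebraMap k L Y₁) ^ 2) *
            (algebraMap k L Z) ^ 2) := by
        rw [hA, map_mul, map_ofNat]
        simp
      rw [e2, e3]
      exact sub_neg.mp h4
    have h6 : (Y₀ ^ 2 - a * Y₁ ^ 2) * Z ^ 2 ≠ 0 := by
      intro h7
      rw [h7, mul_zero, map_zero] at h5
      exact not_lt_zero h5
    have h7 : Y₀ ^ 2 - (a : k) * Y₁ ^ 2 ≠ 0 := left_ne_zero_of_mul h6
    have h8 : Z ≠ 0 := fun h9 => h6 (by rw [h9]; ring)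
    have h9 : x = Units.mk0 _ h7 * (x * (Units.mk0 _ h7)⁻¹) := by
      rw [mul_comm x, mul_inv_cancel_left]
    rw [h9]
    refine Subgroup.mul_mem_sup ⟨Y₀, Y₁, rfl⟩ ⟨Units.mk0 Z h8, ?_⟩
    have e4 : ((x * (Units.mk0 _ h7)⁻¹ : kˣ) : k) / ((Units.mk0 Z h8 : kˣ) : k) ^ 2 - 1 =
        ((x : k) - (Y₀ ^ 2 - a * Y₁ ^ 2) * Z ^ 2) / ((Y₀ ^ 2 - a * Y₁ ^ 2) * Z ^ 2) := by
      rw [Units.val_mul, Units.val_inv_eq_inv_val, Units.val_mk0, Units.val_mk0]
      field_simp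
    rw [e4, map_div₀, div_lt_iff₀ (zero_lt_iff.2 ((Valuation.ne_zero_iff _).2 h6)), ← map_mul]
    exact h5

end Vale.Agent.P011.D4X.H637
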